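import Vale.Agent.P017.R4.Defs2
import Vale.Agent.P017.R3.H237.LA

/-!
# P017, even discriminants: first moments (LA2') and (LA3') in general form

`tw` is the indicator of the index at which the entry of the new column is prescribed; the
difference `ν` of the new row and the new column is arbitrary in `la2`.
-/

open Finset Matrix

namespace Vale.Agent.P017.R4.H237

open Vale.Agent.P017.R3
open Vale.Agent.P017.R3.H237 (sum_z2 z2_cases sum_optv ext_mulVec ext_vecMul extv_eq_zero
  two_pow_ck half z2_ne)
open Vale.Agent.P017.R4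

variable {V : Type}

lemma neg2 (a : ZMod 2) : -a = a := by
  revert a; decide

lemma neg2v (a : V → ZMod 2) : -a = a := funext fun _ => neg2 _

lemma add2 (a : ZMod 2) : a + a = 0 := by
  revert a; decide

lemma add2v (a : V → ZMod 2) : a + a = 0 := funext fun _ => add2 _

lemma eq_of_add_eq_zero2 {a b : ZMod 2} (h : a + b = 0) : a = b := by
  revert a b; decide

lemma eq_of_add_eq_zero2v {a b : V → ZMod 2} (h : a + b = 0) : a = b :=
  funext fun i => eq_of_add_eq_zero2 (congrFun h i)

lemma sum_swap [Fintype V] [DecidableEq V] (F : (V → ZMod 2) → ZMod 2 → (V → ZMod 2) → ℝ) :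
    ∑ φ : V → ZMod 2, ∑ w : ZMod 2, ∑ x : V → ZMod 2, F φ w x =
      ∑ x : V → ZMod 2, ∑ φ : V → ZMod 2, ∑ w : ZMod 2, F φ w x := by
  rw [Finset.sum_comm]
  rw [Finset.sum_congr rfl fun w _ => Finset.sum_comm]
  rw [Finset.sum_comm]
  refine Finset.sum_congr rfl fun x _ => ?_
  rw [Finset.sum_comm]

lemma sum_one (V : Type) [Fintype V] [DecidableEq V] :
    ∑ _x : V → ZMod 2, (1 : ℝ) = 2 ^ Fintype.card V := by
  simp [ZMod.card]

/-- half of the vectors lie on an affine hyperplane -/
lemma half' [Fintype V] [DecidableEq V] {x : V → ZMod 2} (hx : x ≠ 0) (ν : V → ZMod 2) :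
    ∑ φ : V → ZMod 2, (if (φ + ν) ⬝ᵥ x = 0 then (1 : ℝ) else 0) = 2 ^ Fintype.card V / 2 := by
  have : ∀ φ : V → ZMod 2, ((φ + ν) ⬝ᵥ x = 0) = (φ ⬝ᵥ x = ν ⬝ᵥ x) := by
    intro φ
    rw [add_dotProduct]
    generalize φ ⬝ᵥ x = a
    generalize ν ⬝ᵥ x = b
    revert a b
    have key : ∀ a b : ZMod 2, (a + b = 0) ↔ (a = b) := by decide
    intro a b
    exact propext (key a b)
  simp only [this]
  exact half hx _

/-- at most two vectors have a prescribed modification at one index -/
lemma card_cl [Fintype V] [DecidableEq V] (tw : V → ZMod 2) (e : ZMod 2)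
    (h1 : ∀ a b, tw a = 1 → tw b = 1 → a = b) (v : V → ZMod 2) :
    ∑ φ : V → ZMod 2, (if cl e tw φ = v then (1 : ℝ) else 0) ≤ 2 := by
  classical
  rw [← Finset.sum_filter, Finset.sum_const, nsmul_eq_mul, mul_one]
  have : (univ.filter fun φ : V → ZMod 2 => cl e tw φ = v).card ≤ 2 := by
    by_cases ht : ∃ t, tw t = 1
    · obtain ⟨t, ht⟩ := ht
      have hinj : Set.InjOn (fun φ : V → ZMod 2 => φ t)
          (univ.filter fun φ : V → ZMod 2 => cl e tw φ = v) := by
        intro φ hφ ψ hψ hφψ
        have hφ' : cl e tw φ = v := by simpa using hφ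
        have hψ' : cl e tw ψ = v := by simpa using hψ
        funext a
        by_cases ha : tw a = 1
        · rw [h1 a t ha ht]; exact hφψ
        · have e1 := congrFun hφ' a
          have e2 := congrFun hψ' a
          unfold cl at e1 e2
          rw [if_neg ha] at e1 e2
          rw [e1, e2]
      have := Finset.card_le_card_of_injOn (t := (univ : Finset (ZMod 2)))
        (fun φ : V → ZMod 2 => φ t) (fun _ _ => mem_univ _) hinj
      rwa [Finset.card_univ, ZMod.card] at this
    · have hsub : (univ.filter fun φ : V → ZMod 2 => cl e tw φ = v) ⊆ {v} := by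
        intro φ hφ
        have hφ' : cl e tw φ = v := by simpa using hφ
        rw [mem_singleton, ← hφ']
        funext a
        unfold cl
        rw [if_neg fun h => ht ⟨a, h⟩]
      exact (Finset.card_le_card hsub).trans (by simp)
  exact_mod_cast this

/-- **LA2**, arbitrary difference `ν` of the row and the column -/
theorem la2 [Fintype V] [DecidableEq V] (M : Matrix V V (ZMod 2)) (ν tw : V → ZMod 2)
    (e : ZMod 2) (h1 : ∀ a b, tw a = 1 → tw b = 1 → a = b) :
    ∑ φ : V → ZMod 2, ∑ w : ZMod 2, (2 : ℝ) ^ ck (ext M (cl e tw φ) (φ + ν) w) ≤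
      2 ^ (Fintype.card V + 1) * ((2 : ℝ) ^ ck M / 2 + 3 / 2) := by
  classical
  have h2 : ∀ φ : V → ZMod 2, ∀ w : ZMod 2, (2 : ℝ) ^ ck (ext M (cl e tw φ) (φ + ν) w) =
      ∑ x : V → ZMod 2, ((if M.mulVec x = 0 then (1 : ℝ) else 0) *
          (if (φ + ν) ⬝ᵥ x = 0 then (1 : ℝ) else 0) +
        (if cl e tw φ = M.mulVec x then (1 : ℝ) else 0) *
          (if w = (φ + ν) ⬝ᵥ x then (1 : ℝ) else 0)) := by
    intro φ w
    rw [two_pow_ck, sum_optv]
    refine Finset.sum_congr rfl fun x _ => ?_
    rw [sum_z2]
    congr 1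
    · have hc : (ext M (cl e tw φ) (φ + ν) w).mulVec (extv x 0) = 0 ↔
          M.mulVec x = 0 ∧ (φ + ν) ⬝ᵥ x = 0 := by
        rw [ext_mulVec, extv_eq_zero, zero_smul, add_zero, mul_zero, add_zero]
      rw [if_congr hc rfl rfl]
      by_cases h3 : M.mulVec x = 0
      · simp [h3]
      · simp [h3]
    · have hc : (ext M (cl e tw φ) (φ + ν) w).mulVec (extv x 1) = 0 ↔
          M.mulVec x + cl e tw φ = 0 ∧ (φ + ν) ⬝ᵥ x + w = 0 := by
        rw [ext_mulVec, extv_eq_zero, one_smul, mul_one]
      rw [if_congr hc rfl rfl]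
      by_cases h3 : cl e tw φ = M.mulVec x
      · by_cases h4 : w = (φ + ν) ⬝ᵥ x
        · rw [if_pos ⟨by rw [h3]; exact add2v _, by rw [h4]; exact add2 _⟩, if_pos h3, if_pos h4,
            one_mul]
        · rw [if_neg fun h => h4 (eq_of_add_eq_zero2 h.2).symm, if_pos h3, if_neg h4, mul_zero]
      · rw [if_neg fun h => h3 (eq_of_add_eq_zero2v h.1).symm, if_neg h3, zero_mul]
  simp only [h2]
  rw [sum_swap]
  have h3 : ∀ x : V → ZMod 2, ∑ φ : V → ZMod 2, ∑ w : ZMod 2,
      ((if M.mulVec x = 0 then (1 : ℝ) else 0) *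
          (if (φ + ν) ⬝ᵥ x = 0 then (1 : ℝ) else 0) +
        (if cl e tw φ = M.mulVec x then (1 : ℝ) else 0) *
          (if w = (φ + ν) ⬝ᵥ x then (1 : ℝ) else 0)) ≤
      (if M.mulVec x = 0 then (1 : ℝ) else 0) * 2 ^ Fintype.card V +
        (if x = 0 then (2 : ℝ) ^ Fintype.card V else 0) + 2 := by
    intro x
    simp only [Finset.sum_add_distrib]
    refine add_le_add ?_ ?_
    · simp only [← Finset.mul_sum, Finset.sum_const, Finset.card_univ, ZMod.card, nsmul_eq_mul]
      by_cases hM : M.mulVec x = 0
      · rw [if_pos hM, one_mul, one_mul]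
        by_cases hx : x = 0
        · subst hx
          rw [if_pos rfl]
          simp only [dotProduct_zero, if_true]
          rw [sum_one]
          push_cast
          linarith
        · rw [if_neg hx, half' hx]
          push_cast
          linarith
      · rw [if_neg hM, zero_mul, zero_mul]
        split_ifs <;> positivity
    · have h4 : ∀ φ : V → ZMod 2, ∑ w : ZMod 2,
          (if cl e tw φ = M.mulVec x then (1 : ℝ) else 0) *
            (if w = (φ + ν) ⬝ᵥ x then (1 : ℝ) else 0) =
          if cl e tw φ = M.mulVec x then (1 : ℝ) else 0 := by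
        intro φ
        rw [← Finset.mul_sum, Finset.sum_ite_eq' univ, if_pos (mem_univ _), mul_one]
      rw [Finset.sum_congr rfl fun φ _ => h4 φ]
      exact card_cl tw e h1 _
  refine (Finset.sum_le_sum fun x _ => h3 x).trans ?_
  rw [Finset.sum_add_distrib, Finset.sum_add_distrib, ← Finset.sum_mul, ← two_pow_ck,
    Finset.sum_ite_eq' univ, if_pos (mem_univ _), Finset.sum_const, Finset.card_univ,
    Fintype.card_fun, ZMod.card, nsmul_eq_mul, pow_succ]
  push_cast
  apply le_of_eq
  ring

theorem stmtLA2' : StmtLA2' := by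
  intro V _ _ M μ st e h1
  exact la2 M (e • μ) st e h1

/-! ### left kernel vectors whose ordinary part is in the right kernel -/

lemma sp3_eq [Fintype V] [DecidableEq V] (M : Matrix V V (ZMod 2)) (tw : V → ZMod 2) :
    (sp3 M tw : ℝ) = ∑ x : V → ZMod 2,
      if x ≠ 0 ∧ M.vecMul x = 0 ∧ M.mulVec (cl 0 tw x) = 0 then (1 : ℝ) else 0 := by
  unfold sp3
  rw [← Finset.sum_filter, Finset.sum_const, nsmul_eq_mul, mul_one]

lemma cl_extv (tw x : V → ZMod 2) (b : ZMod 2) :
    cl 0 (extv tw 0) (extv x b) = extv (cl 0 tw x) b := by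
  funext a
  cases a with
  | none => simp [cl, extv]
  | some a => rfl

/-- the product of a vector with the new column -/
lemma dot_cl [Fintype V] [DecidableEq V] (tw : V → ZMod 2) (e : ZMod 2) (x φ : V → ZMod 2) :
    x ⬝ᵥ cl e tw φ = φ ⬝ᵥ cl 0 tw x + e * ∑ a, (if tw a = 1 then x a else 0) := by
  simp only [dotProduct, Finset.mul_sum, ← Finset.sum_add_distrib]
  refine Finset.sum_congr rfl fun a _ => ?_
  unfold cl
  by_cases ha : tw a = 1
  · simp [ha, mul_comm]
  · simp [ha, mul_comm]

/-- counting the solutions of the second type -/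
lemma card_sym [Fintype V] [DecidableEq V] (M : Matrix V V (ZMod 2)) (μ st tw : V → ZMod 2)
    (hR : Rec5 M μ st tw) (ν : V → ZMod 2) :
    ∑ x : V → ZMod 2, (if (∀ a, μ a = 1 → M.mulVec (cl 0 tw x) a + M.vecMul x a = ν a)
      then (1 : ℝ) else 0) ≤
      2 ^ (Fintype.card V + 1) * (1 / 2 : ℝ) ^ (univ.filter fun a => μ a = 1).card := by
  classical
  set m := (univ.filter fun a => μ a = 1).card with hm
  have hcard : Fintype.card {b : V // μ b = 0} + m = Fintype.card V := by
    have h1 := Finset.card_filter_add_card_filter_not (s := (univ : Finset V)) (fun a => μ a = 1)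
    rw [Finset.card_univ] at h1
    rw [Fintype.card_subtype]
    have h2 : (univ.filter fun b : V => μ b = 0) = univ.filter fun a => ¬ μ a = 1 := by
      refine Finset.filter_congr fun a _ => ?_
      constructor
      · intro h
        rw [h]
        decide
      · exact z2_ne _
    rw [h2, ← h1, hm, add_comm]
  have hst : ∀ b, μ b = 1 → st b = 0 := fun b hb => by
    refine z2_ne _ fun h => ?_
    have := hR.zero b h
    rw [hb] at this
    exact absurd this (by decide)
  have htw : ∀ b, μ b = 1 → tw b = 0 := fun b hb => by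
    refine z2_ne _ fun h => ?_
    have := hR.zero' b h
    rw [hb] at this
    exact absurd this (by decide)
  let f : {x : V → ZMod 2 // ∀ a, μ a = 1 → M.mulVec (cl 0 tw x) a + M.vecMul x a = ν a} →
      ZMod 2 × ({b : V // μ b = 0} → ZMod 2) := fun x => (∑ b, μ b * x.1 b, fun b => x.1 b.1)
  have hf : Function.Injective f := by
    rintro ⟨x, hx⟩ ⟨y, hy⟩ hxy
    have h1 : ∑ b, μ b * x b = ∑ b, μ b * y b := congrArg Prod.fst hxy
    have h2 : ∀ b, μ b = 0 → x b = y b := fun b hb =>
      congrFun (congrArg Prod.snd hxy) ⟨b, hb⟩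
    refine Subtype.ext (funext fun a => ?_)
    rcases z2_cases (μ a) with ha | ha
    · exact h2 a ha
    set d : V → ZMod 2 := x - y with hd
    have hd0 : ∀ b, μ b = 0 → d b = 0 := fun b hb => by
      rw [hd, Pi.sub_apply, h2 b hb, sub_self]
    have hdS : ∑ b, μ b * d b = 0 := by
      have : ∀ b, μ b * d b = μ b * x b - μ b * y b := fun b => by
        rw [hd, Pi.sub_apply, mul_sub]
      rw [Finset.sum_congr rfl fun b _ => this b, Finset.sum_sub_distrib, h1, sub_self]
    have hcl : ∀ b, cl 0 tw x b - cl 0 tw y b = d b := by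
      intro b
      unfold cl
      by_cases hb : tw b = 1
      · rw [if_pos hb, if_pos hb, sub_self, hd0 b (hR.zero' b hb)]
      · rw [if_neg hb, if_neg hb, hd, Pi.sub_apply]
    have hda : ∑ b, (M a b + M b a) * d b = 0 := by
      have e1 := hx a ha
      have e2 := hy a ha
      simp only [mulVec, vecMul, dotProduct] at e1 e2
      have : ∀ b, (M a b + M b a) * d b =
          (M a b * cl 0 tw x b + x b * M b a) - (M a b * cl 0 tw y b + y b * M b a) := fun b => by
        have h3 := hcl b
        have h4 : M a b * cl 0 tw x b - M a b * cl 0 tw y b = M a b * d b := by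
          rw [← mul_sub, h3]
        have h5 : x b * M b a - y b * M b a = M b a * d b := by
          rw [hd, Pi.sub_apply]; ring
        rw [add_mul, ← h4, ← h5]; ring
      rw [Finset.sum_congr rfl fun b _ => this b, Finset.sum_sub_distrib,
        Finset.sum_add_distrib, Finset.sum_add_distrib, e1, e2, sub_self]
    have key : ∀ b, (M a b + M b a) * d b = μ b * d b - (if b = a then d a else 0) := by
      intro b
      rcases z2_cases (μ b) with hb | hb
      · rw [hd0 b hb, mul_zero, mul_zero]
        split_ifs with h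
        · rw [← h, hd0 b hb, sub_zero]
        · rw [sub_zero]
      · by_cases hba : b = a
        · subst hba
          rw [if_pos rfl, hb]
          generalize M b b = c
          generalize d b = t
          revert c t
          decide
        · rw [if_neg hba, hR.recip a b (Ne.symm hba) (hst a ha) (hst b hb) (htw a ha) (htw b hb),
            ha, one_mul, sub_zero]
    rw [Finset.sum_congr rfl fun b _ => key b, Finset.sum_sub_distrib, hdS, zero_sub,
      Finset.sum_ite_eq' univ a, if_pos (mem_univ a), neg_eq_zero] at hda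
    exact sub_eq_zero.1 hda
  have h3 := Fintype.card_le_of_injective f hf
  rw [Fintype.card_prod, Fintype.card_fun, ZMod.card, Fintype.card_subtype] at h3
  rw [← Finset.sum_filter, Finset.sum_const, nsmul_eq_mul, mul_one]
  have h4 : ((univ.filter fun x : V → ZMod 2 =>
      ∀ a, μ a = 1 → M.mulVec (cl 0 tw x) a + M.vecMul x a = ν a).card : ℝ) ≤
      2 * 2 ^ Fintype.card {b : V // μ b = 0} := by exact_mod_cast h3
  refine h4.trans (le_of_eq ?_)
  rw [← hcard, pow_succ, pow_add, one_div, inv_pow]
  field_simp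

/-- if `μ` is not zero, a left kernel vector has a nonzero ordinary part -/
lemma cl_ne_zero [Fintype V] [DecidableEq V] (M : Matrix V V (ZMod 2)) (μ st tw : V → ZMod 2)
    (hR : Rec5 M μ st tw) {a₀ : V} (ha₀ : μ a₀ = 1) {x : V → ZMod 2} (hx : x ≠ 0)
    (hxM : M.vecMul x = 0) : cl 0 tw x ≠ 0 := by
  intro h0
  obtain ⟨t, ht⟩ : ∃ t, x t ≠ 0 := by
    by_contra h
    push Not at h
    exact hx (funext h)
  have ht1 : tw t = 1 := by
    by_contra h
    have := congrFun h0 t
    unfold cl at this
    rw [if_neg h] at this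
    exact ht this
  have hne : t ≠ a₀ := by
    rintro rfl
    have := hR.zero' t ht1
    rw [ha₀] at this
    exact absurd this (by decide)
  have hxb : ∀ b, b ≠ t → x b = 0 := by
    intro b hb
    have := congrFun h0 b
    unfold cl at this
    rwa [if_neg fun h => hb (hR.one' b t h ht1)] at this
  have h1 : M.vecMul x a₀ = x t * M t a₀ := by
    simp only [vecMul, dotProduct]
    rw [Finset.sum_eq_single t (fun b _ hb => by rw [hxb b hb, zero_mul])
      (fun h => absurd (mem_univ t) h)]
  rw [hxM, Pi.zero_apply, hR.row t a₀ ht1 hne, ha₀, mul_one] at h1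
  exact ht h1.symm

/-- **LA3**, general form -/
theorem la3 [Fintype V] [DecidableEq V] (M : Matrix V V (ZMod 2)) (μ st tw : V → ZMod 2)
    (e χ : ZMod 2) (hR : Rec5 M μ st tw) :
    ∑ φ : V → ZMod 2, ∑ w : ZMod 2,
      (sp3 (ext M (cl e tw φ) (φ + (e • μ + χ • st)) w) (extv tw 0) : ℝ) ≤
    2 ^ (Fintype.card V + 1) * ((sp3 M tw : ℝ) / 2 +
      (1 / 2 : ℝ) ^ (univ.filter fun a => μ a = 1).card) := by
  classical
  set ν : V → ZMod 2 := e • μ + χ • st with hν
  have hνa : ∀ a, μ a = 1 → ν a = e := by
    intro a ha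
    have hst : st a = 0 := z2_ne _ fun h => by
      have := hR.zero a h
      rw [ha] at this
      exact absurd this (by decide)
    rw [hν, Pi.add_apply, Pi.smul_apply, Pi.smul_apply, ha, hst, smul_eq_mul, smul_eq_mul,
      mul_one, mul_zero, add_zero]
  -- the two types
  set P : (V → ZMod 2) → Prop := fun x => x ≠ 0 ∧ M.vecMul x = 0 ∧ M.mulVec (cl 0 tw x) = 0
    with hP
  set Q : (V → ZMod 2) → Prop := fun x => ∀ a, μ a = 1 →
    M.mulVec (cl 0 tw x) a + M.vecMul x a = e with hQ
  have h1 : ∀ φ : V → ZMod 2, ∀ w : ZMod 2,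
      (sp3 (ext M (cl e tw φ) (φ + ν) w) (extv tw 0) : ℝ) ≤
      ∑ x : V → ZMod 2, ((if P x then (1 : ℝ) else 0) *
          (if (φ + ν) ⬝ᵥ cl 0 tw x = 0 then (1 : ℝ) else 0) +
        (if Q x then (1 : ℝ) else 0) *
          (if φ = M.vecMul x + ν ∧ w = (φ + ν) ⬝ᵥ cl 0 tw x then (1 : ℝ) else 0)) := by
    intro φ w
    rw [sp3_eq, sum_optv]
    refine Finset.sum_le_sum fun x _ => ?_
    rw [sum_z2]
    refine add_le_add ?_ ?_
    · by_cases h : extv x 0 ≠ 0 ∧ (ext M (cl e tw φ) (φ + ν) w).vecMul (extv x 0) = 0 ∧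
          (ext M (cl e tw φ) (φ + ν) w).mulVec (cl 0 (extv tw 0) (extv x 0)) = 0
      · rw [if_pos h]
        rw [cl_extv, ext_mulVec, ext_vecMul, extv_eq_zero, extv_eq_zero, zero_smul, zero_smul,
          add_zero, add_zero, mul_zero, zero_mul, add_zero, add_zero, Ne, extv_eq_zero] at h
        obtain ⟨h0, ⟨h1, -⟩, h3, h4⟩ := h
        rw [if_pos (show P x from ⟨fun hx => h0 ⟨hx, rfl⟩, h1, h3⟩), if_pos h4]
        norm_num
      · rw [if_neg h]
        positivity
    · by_cases h : extv x 1 ≠ 0 ∧ (ext M (cl e tw φ) (φ + ν) w).vecMul (extv x 1) = 0 ∧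
          (ext M (cl e tw φ) (φ + ν) w).mulVec (cl 0 (extv tw 0) (extv x 1)) = 0
      · rw [if_pos h]
        rw [cl_extv, ext_mulVec, ext_vecMul, extv_eq_zero, extv_eq_zero, one_smul, one_smul,
          mul_one, one_mul] at h
        obtain ⟨-, ⟨h1, -⟩, h3, h4⟩ := h
        have e1 : M.vecMul x = φ + ν := eq_of_add_eq_zero2v h1
        have e2 : M.mulVec (cl 0 tw x) = cl e tw φ := eq_of_add_eq_zero2v h3
        have e3 : w = (φ + ν) ⬝ᵥ cl 0 tw x := (eq_of_add_eq_zero2 h4).symm
        have e4 : φ = M.vecMul x + ν := by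
          rw [e1, add_assoc, add2v, add_zero]
        have e5 : Q x := by
          intro a ha
          have htw : tw a ≠ 1 := fun h => by
            have := hR.zero' a h
            rw [ha] at this
            exact absurd this (by decide)
          rw [e2, e1, Pi.add_apply, hνa a ha]
          unfold cl
          rw [if_neg htw, ← add_assoc, add2, zero_add]
        rw [if_pos e5, if_pos ⟨e4, e3⟩]
        norm_num
      · rw [if_neg h]
        positivity
  refine (Finset.sum_le_sum fun φ _ => Finset.sum_le_sum fun w _ => h1 φ w).trans ?_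
  rw [sum_swap]
  have h2 : ∀ x : V → ZMod 2, ∑ φ : V → ZMod 2, ∑ w : ZMod 2,
      ((if P x then (1 : ℝ) else 0) *
          (if (φ + ν) ⬝ᵥ cl 0 tw x = 0 then (1 : ℝ) else 0) +
        (if Q x then (1 : ℝ) else 0) *
          (if φ = M.vecMul x + ν ∧ w = (φ + ν) ⬝ᵥ cl 0 tw x then (1 : ℝ) else 0)) =
      (if P x then (1 : ℝ) else 0) *
        (if cl 0 tw x = 0 then 2 ^ (Fintype.card V + 1) else 2 ^ Fintype.card V) +
        (if Q x then (1 : ℝ) else 0) := by
    intro x
    simp only [Finset.sum_add_distrib, ← Finset.mul_sum]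
    congr 1
    · congr 1
      simp only [Finset.sum_const, Finset.card_univ, ZMod.card, nsmul_eq_mul]
      rw [← Finset.mul_sum]
      by_cases hx : cl 0 tw x = 0
      · rw [if_pos hx, hx]
        simp only [dotProduct_zero, if_true]
        rw [sum_one, pow_succ]
        push_cast
        ring
      · rw [if_neg hx, half' hx]
        push_cast
        ring
    · have h3 : ∀ φ : V → ZMod 2, ∑ w : ZMod 2,
          (if φ = M.vecMul x + ν ∧ w = (φ + ν) ⬝ᵥ cl 0 tw x then (1 : ℝ) else 0) =
          if φ = M.vecMul x + ν then (1 : ℝ) else 0 := by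
        intro φ
        by_cases hφ : φ = M.vecMul x + ν
        · simp only [hφ, true_and, if_true]
          rw [Finset.sum_ite_eq' univ, if_pos (mem_univ _)]
        · simp [hφ]
      rw [Finset.sum_congr rfl fun φ _ => h3 φ, Finset.sum_ite_eq' univ, if_pos (mem_univ _),
        mul_one]
  rw [Finset.sum_congr rfl fun x _ => h2 x, Finset.sum_add_distrib]
  have hPs : ∑ x : V → ZMod 2, (if P x then (1 : ℝ) else 0) = sp3 M tw := by
    rw [sp3_eq]
  by_cases hμ : ∃ a, μ a = 1
  · obtain ⟨a₀, ha₀⟩ := hμ
    have h4 : ∀ x : V → ZMod 2, (if P x then (1 : ℝ) else 0) *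
        (if cl 0 tw x = 0 then 2 ^ (Fintype.card V + 1) else 2 ^ Fintype.card V) =
        (if P x then (1 : ℝ) else 0) * 2 ^ Fintype.card V := by
      intro x
      by_cases hx : P x
      · rw [if_neg (cl_ne_zero M μ st tw hR ha₀ hx.1 hx.2.1)]
      · rw [if_neg hx, zero_mul, zero_mul]
    rw [Finset.sum_congr rfl fun x _ => h4 x, ← Finset.sum_mul, hPs, mul_add]
    refine add_le_add (le_of_eq ?_) (card_sym M μ st tw hR fun _ => e)
    rw [pow_succ]
    ring
  · push Not at hμ
    have hm : (univ.filter fun a => μ a = 1).card = 0 := by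
      rw [Finset.card_eq_zero]
      exact Finset.filter_eq_empty_iff.2 fun a _ => hμ a
    rw [hm, pow_zero]
    have h5 : ∑ x : V → ZMod 2, (if Q x then (1 : ℝ) else 0) ≤ 2 ^ Fintype.card V := by
      rw [← sum_one V]
      refine Finset.sum_le_sum fun x _ => ?_
      split_ifs <;> norm_num
    have h6 : ∑ x : V → ZMod 2, (if P x then (1 : ℝ) else 0) *
        (if cl 0 tw x = 0 then 2 ^ (Fintype.card V + 1) else 2 ^ Fintype.card V) ≤
        (sp3 M tw : ℝ) * 2 ^ Fintype.card V + 2 ^ Fintype.card V := by
      have h7 : ∀ x : V → ZMod 2, (if P x then (1 : ℝ) else 0) *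
          (if cl 0 tw x = 0 then 2 ^ (Fintype.card V + 1) else 2 ^ Fintype.card V) ≤
          (if P x then (1 : ℝ) else 0) * 2 ^ Fintype.card V +
            (if x ≠ 0 ∧ cl 0 tw x = 0 then (1 : ℝ) else 0) * 2 ^ Fintype.card V := by
        intro x
        by_cases hx : P x
        · rw [if_pos hx, one_mul, one_mul]
          by_cases hc : cl 0 tw x = 0
          · rw [if_pos hc, if_pos ⟨hx.1, hc⟩, one_mul, pow_succ]
            linarith
          · rw [if_neg hc, if_neg fun h => hc h.2, zero_mul, add_zero]
        · rw [if_neg hx, zero_mul, zero_mul, zero_add]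
          positivity
      refine (Finset.sum_le_sum fun x _ => h7 x).trans ?_
      rw [Finset.sum_add_distrib, ← Finset.sum_mul, ← Finset.sum_mul, hPs]
      have h8 : ∑ x : V → ZMod 2, (if x ≠ 0 ∧ cl 0 tw x = 0 then (1 : ℝ) else 0) ≤ 1 := by
        rw [← Finset.sum_filter, Finset.sum_const, nsmul_eq_mul, mul_one]
        have : (univ.filter fun x : V → ZMod 2 => x ≠ 0 ∧ cl 0 tw x = 0).card ≤ 1 := by
          rw [Finset.card_le_one]
          intro x hx y hy
          simp only [mem_filter, mem_univ, true_and] at hx hy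
          obtain ⟨t, ht⟩ : ∃ t, x t ≠ 0 := by
            by_contra h
            push Not at h
            exact hx.1 (funext h)
          obtain ⟨s, hs⟩ : ∃ s, y s ≠ 0 := by
            by_contra h
            push Not at h
            exact hy.1 (funext h)
          have hxt : ∀ b, tw b ≠ 1 → x b = 0 := by
            intro b hb
            have := congrFun hx.2 b
            unfold cl at this
            rwa [if_neg hb] at this
          have hyt : ∀ b, tw b ≠ 1 → y b = 0 := by
            intro b hb
            have := congrFun hy.2 b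
            unfold cl at this
            rwa [if_neg hb] at this
          have ht1 : tw t = 1 := by
            by_contra h
            exact ht (hxt t h)
          have hs1 : tw s = 1 := by
            by_contra h
            exact hs (hyt s h)
          have hst : s = t := hR.one' s t hs1 ht1
          subst hst
          funext b
          by_cases hb : tw b = 1
          · rw [hR.one' b s hb hs1, (z2_cases (x s)).resolve_left ht,
              (z2_cases (y s)).resolve_left hs]
          · rw [hxt b hb, hyt b hb]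
        exact_mod_cast this
      have h9 : (0 : ℝ) ≤ 2 ^ Fintype.card V := by positivity
      nlinarith
    refine (add_le_add h6 h5).trans (le_of_eq ?_)
    rw [pow_succ]
    ring

theorem stmtLA3' : StmtLA3' := by
  intro V _ _ M μ tw e hR
  have h0 : ∀ a : V, (0 : V → ZMod 2) a = 1 → False := fun a h => absurd h (by simp)
  have h := la3 M μ 0 tw e 0
    { recip := fun a b hab _ _ ha hb => hR.recip a b hab ha hb
      row := hR.row
      one := fun a _ ha _ => (h0 a ha).elim
      one' := hR.one
      zero := fun a ha => (h0 a ha).elim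
      zero' := hR.zero
      disj := fun a ha => (h0 a ha).elim }
  simpa using h

end Vale.Agent.P017.R4.H237
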